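import Vale.Agent.P113U.Ibp

/-!
P113: uniqueness of classical solutions of the forced Navier-Stokes system on the torus, by the
energy method.  Functions on the torus are periodic functions on `Fin 3 → ℝ`, and the derivatives
are given as explicit data, so that the theorem applies to any definition of a classical solution.
-/

open MeasureTheory Set Function

namespace Vale.Agent.P113U

/-- A classical solution `(u, p)` on `[0, T]`, with its derivatives `ut` (time), `ux j` (first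
order in the direction `j`), `uxx j` (second order in the direction `j`) and `px j`. -/
structure Sol (ν T : ℝ) (f u : ℝ → (Fin 3 → ℝ) → Fin 3 → ℝ) (p : ℝ → (Fin 3 → ℝ) → ℝ)
    (ut : ℝ → (Fin 3 → ℝ) → Fin 3 → ℝ) (ux uxx : Fin 3 → ℝ → (Fin 3 → ℝ) → Fin 3 → ℝ)
    (px : Fin 3 → ℝ → (Fin 3 → ℝ) → ℝ) : Prop where
  per_u : ∀ t ∈ Icc 0 T, ∀ x j, u t (x + Pi.single j 1) = u t x
  per_p : ∀ t ∈ Ioo 0 T, ∀ x j, p t (x + Pi.single j 1) = p t x
  cont_u : ∀ i, ContinuousOn (fun z : ℝ × (Fin 3 → ℝ) => u z.1 z.2 i) (Icc 0 T ×ˢ univ)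
  cont_ut : ∀ i, ContinuousOn (fun z : ℝ × (Fin 3 → ℝ) => ut z.1 z.2 i) (Icc 0 T ×ˢ univ)
  cont_ux : ∀ j i, ContinuousOn (fun z : ℝ × (Fin 3 → ℝ) => ux j z.1 z.2 i) (Icc 0 T ×ˢ univ)
  cont_uxx : ∀ t ∈ Ioo 0 T, ∀ j i, Continuous fun x => uxx j t x i
  cont_p : ContinuousOn (fun z : ℝ × (Fin 3 → ℝ) => p z.1 z.2) (Icc 0 T ×ˢ univ)
  cont_px : ∀ t ∈ Ioo 0 T, ∀ j, Continuous (px j t)
  d_t : ∀ t ∈ Ioo 0 T, ∀ x i, HasDerivAt (fun s => u s x i) (ut t x i) t
  d_x : ∀ t ∈ Ioo 0 T, ∀ j x i, HasDerivAt (fun s => u t (update x j s) i) (ux j t x i) (x j)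
  d_xx : ∀ t ∈ Ioo 0 T, ∀ j x i,
    HasDerivAt (fun s => ux j t (update x j s) i) (uxx j t x i) (x j)
  d_p : ∀ t ∈ Ioo 0 T, ∀ j x, HasDerivAt (fun s => p t (update x j s)) (px j t x) (x j)
  eqn : ∀ t ∈ Ioo 0 T, ∀ x i, ut t x i + ∑ j, u t x j * ux j t x i =
    -px i t x + ν * ∑ j, uxx j t x i + f t x i
  div : ∀ t ∈ Ioo 0 T, ∀ x, ∑ j, ux j t x j = 0
  init : ∀ x, u 0 x = 0
  mean : ∀ t ∈ Ioo 0 T, ∫ x in Icc (0 : Fin 3 → ℝ) 1, p t x = 0

theorem cont_slice {T t : ℝ} (ht : t ∈ Icc 0 T) {g : ℝ → (Fin 3 → ℝ) → ℝ}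
    (hg : ContinuousOn (fun z : ℝ × (Fin 3 → ℝ) => g z.1 z.2) (Icc 0 T ×ˢ univ)) :
    Continuous (g t) := by
  rw [← continuousOn_univ]
  exact hg.comp (f := fun x => (t, x)) (Continuous.prodMk_right t).continuousOn
    fun x _ => ⟨ht, mem_univ _⟩

theorem cont_time {T : ℝ} (x : Fin 3 → ℝ) {g : ℝ → (Fin 3 → ℝ) → ℝ}
    (hg : ContinuousOn (fun z : ℝ × (Fin 3 → ℝ) => g z.1 z.2) (Icc 0 T ×ˢ univ)) :
    ContinuousOn (fun t => g t x) (Icc 0 T) :=
  hg.comp (f := fun t => (t, x)) (Continuous.prodMk_left x).continuousOn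
    fun _ ht => ⟨ht, mem_univ _⟩

theorem bound_cube {T : ℝ} {g : ℝ → (Fin 3 → ℝ) → ℝ}
    (hg : ContinuousOn (fun z : ℝ × (Fin 3 → ℝ) => g z.1 z.2) (Icc 0 T ×ˢ univ)) :
    ∃ C, ∀ t ∈ Icc 0 T, ∀ x ∈ Icc (0 : Fin 3 → ℝ) 1, |g t x| ≤ C := by
  obtain ⟨C, hC⟩ := (isCompact_Icc.prod (isCompact_Icc (a := (0 : Fin 3 → ℝ)) (b := 1))
    ).exists_bound_of_continuousOn (hg.mono (prod_mono subset_rfl (subset_univ _)))
  exact ⟨C, fun t ht x hx => hC (t, x) ⟨ht, hx⟩⟩

theorem cubic_le {C : ℝ} (w : Fin 3 → ℝ) (a : Fin 3 → Fin 3 → ℝ) (ha : ∀ j i, |a j i| ≤ C) :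
    -(2 * ∑ i, ∑ j, w i * w j * a j i) ≤ 6 * C * ∑ i, w i ^ 2 := by
  have h1 : ∀ i j, -(2 * (w i * w j * a j i)) ≤ C * (w i ^ 2 + w j ^ 2) := by
    intro i j
    have h2 := abs_le.1 (ha j i)
    nlinarith [mul_nonneg (sub_nonneg.2 h2.2) (sq_nonneg (w i - w j)),
      mul_nonneg (neg_le_iff_add_nonneg.1 h2.1) (sq_nonneg (w i + w j))]
  simp only [Fin.sum_univ_three]
  linarith [h1 0 0, h1 0 1, h1 0 2, h1 1 0, h1 1 1, h1 1 2, h1 2 0, h1 2 1, h1 2 2]

variable {ν T : ℝ} {f u v : ℝ → (Fin 3 → ℝ) → Fin 3 → ℝ} {p q : ℝ → (Fin 3 → ℝ) → ℝ}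
  {ut vt : ℝ → (Fin 3 → ℝ) → Fin 3 → ℝ} {ux uxx vx vxx : Fin 3 → ℝ → (Fin 3 → ℝ) → Fin 3 → ℝ}
  {px qx : Fin 3 → ℝ → (Fin 3 → ℝ) → ℝ}

theorem Sol.per_ux (hu : Sol ν T f u p ut ux uxx px) {t : ℝ} (ht : t ∈ Ioo 0 T) (j k : Fin 3)
    (x : Fin 3 → ℝ) (i : Fin 3) : ux j t (x + Pi.single k 1) i = ux j t x i :=
  deriv_periodic j k (g := fun x => u t x i) (g' := fun x => ux j t x i)
    (fun x => hu.d_x t ht j x i) (fun x => by rw [hu.per_u t (Ioo_subset_Icc_self ht)]) x

/-- The energy inequality at a fixed time. -/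
theorem energy_le (hν : 0 ≤ ν) (hu : Sol ν T f u p ut ux uxx px) (hv : Sol ν T f v q vt vx vxx qx)
    {C t : ℝ} (ht : t ∈ Ioo 0 T) (hC : ∀ x ∈ Icc (0 : Fin 3 → ℝ) 1, ∀ j i, |ux j t x i| ≤ C) :
    ∫ x in Icc (0 : Fin 3 → ℝ) 1, ∑ i, 2 * (u t x i - v t x i) * (ut t x i - vt t x i) ≤
      6 * C * ∫ x in Icc (0 : Fin 3 → ℝ) 1, ∑ i, (u t x i - v t x i) ^ 2 := by
  have ht' := Ioo_subset_Icc_self ht
  have cu := fun i => cont_slice ht' (g := fun t x => u t x i) (hu.cont_u i)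
  have cv := fun i => cont_slice ht' (g := fun t x => v t x i) (hv.cont_u i)
  have cut := fun i => cont_slice ht' (g := fun t x => ut t x i) (hu.cont_ut i)
  have cvt := fun i => cont_slice ht' (g := fun t x => vt t x i) (hv.cont_ut i)
  have cux := fun j i => cont_slice ht' (g := fun t x => ux j t x i) (hu.cont_ux j i)
  have cvx := fun j i => cont_slice ht' (g := fun t x => vx j t x i) (hv.cont_ux j i)
  have cuxx := hu.cont_uxx t ht
  have cvxx := hv.cont_uxx t ht
  have cp := cont_slice ht' hu.cont_p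
  have cq := cont_slice ht' hv.cont_p
  have cpx := hu.cont_px t ht
  have cqx := hv.cont_px t ht
  -- the flux and its derivative
  set G : Fin 3 → (Fin 3 → ℝ) → ℝ := fun j x =>
    -(v t x j * ∑ i, (u t x i - v t x i) * (u t x i - v t x i)) -
      2 * ((p t x - q t x) * (u t x j - v t x j)) +
      2 * ν * ∑ i, (u t x i - v t x i) * (ux j t x i - vx j t x i) with hG
  set G' : Fin 3 → (Fin 3 → ℝ) → ℝ := fun j x =>
    -(vx j t x j * ∑ i, (u t x i - v t x i) * (u t x i - v t x i) +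
        v t x j * ∑ i, ((ux j t x i - vx j t x i) * (u t x i - v t x i) +
          (u t x i - v t x i) * (ux j t x i - vx j t x i))) -
      2 * ((px j t x - qx j t x) * (u t x j - v t x j) +
        (p t x - q t x) * (ux j t x j - vx j t x j)) +
      2 * ν * ∑ i, ((ux j t x i - vx j t x i) * (ux j t x i - vx j t x i) +
        (u t x i - v t x i) * (uxx j t x i - vxx j t x i)) with hG'
  have cG' : ∀ j, Continuous (G' j) := by
    intro j
    simp only [hG']
    fun_prop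
  have dG : ∀ j x, HasDerivAt (fun s => G j (update x j s)) (G' j x) (x j) := by
    intro j x
    have dw := fun i => (hu.d_x t ht j x i).fun_sub (hv.d_x t ht j x i)
    have dwx := fun i => (hu.d_xx t ht j x i).fun_sub (hv.d_xx t ht j x i)
    have dr := (hu.d_p t ht j x).fun_sub (hv.d_p t ht j x)
    have h1 := (((hv.d_x t ht j x j).fun_mul
      (HasDerivAt.fun_sum (u := Finset.univ) fun i _ => (dw i).fun_mul (dw i))).fun_neg.fun_sub
      ((dr.fun_mul (dw j)).const_mul 2)).fun_add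
      ((HasDerivAt.fun_sum (u := Finset.univ) fun i _ => (dw i).fun_mul (dwx i)).const_mul (2 * ν))
    simpa only [hG, hG', update_eq_self] using h1
  have pG : ∀ j x, G j (x + Pi.single j 1) = G j x := by
    intro j x
    simp only [hG, hu.per_u t ht', hv.per_u t ht', hu.per_p t ht, hv.per_p t ht, hu.per_ux ht,
      hv.per_ux ht]
  have iG : ∀ j, ∫ x in Icc (0 : Fin 3 → ℝ) 1, G' j x = 0 := fun j =>
    integral_deriv_eq_zero j (cG' j) (dG j) (pG j)
  have int : ∀ {g : (Fin 3 → ℝ) → ℝ}, Continuous g → IntegrableOn g (Icc (0 : Fin 3 → ℝ) 1) :=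
    fun hg => hg.continuousOn.integrableOn_compact isCompact_Icc
  have iG2 : ∫ x in Icc (0 : Fin 3 → ℝ) 1, ∑ j, G' j x = 0 := by
    rw [integral_finsetSum _ fun j _ => int (cG' j)]
    simp [iG]
  have key : ∀ x ∈ Icc (0 : Fin 3 → ℝ) 1,
      ∑ i, 2 * (u t x i - v t x i) * (ut t x i - vt t x i) ≤
        ∑ j, G' j x + 6 * C * ∑ i, (u t x i - v t x i) ^ 2 := by
    intro x hx
    have h1 := cubic_le (fun i => u t x i - v t x i) (fun j i => ux j t x i) (hC x hx)
    have h2 : 0 ≤ ν * ∑ j, ∑ i, (ux j t x i - vx j t x i) ^ 2 := by positivity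
    have h3 : ∑ i, 2 * (u t x i - v t x i) * (ut t x i - vt t x i) =
        ∑ j, G' j x - 2 * ∑ i, ∑ j, (u t x i - v t x i) * (u t x j - v t x j) * ux j t x i -
          2 * (ν * ∑ j, ∑ i, (ux j t x i - vx j t x i) ^ 2) := by
      have e1 := hu.eqn t ht x
      have e2 := hv.eqn t ht x
      have d1 := hu.div t ht x
      have d2 := hv.div t ht x
      have a0 := e1 0
      have a1 := e1 1
      have a2 := e1 2
      have b0 := e2 0
      have b1 := e2 1
      have b2 := e2 2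
      simp only [hG', Fin.sum_univ_three] at a0 a1 a2 b0 b1 b2 d1 d2 ⊢
      linear_combination 2 * (u t x 0 - v t x 0) * (a0 - b0) + 2 * (u t x 1 - v t x 1) * (a1 - b1) +
        2 * (u t x 2 - v t x 2) * (a2 - b2) + 2 * (p t x - q t x) * (d1 - d2) +
        ((u t x 0 - v t x 0) ^ 2 + (u t x 1 - v t x 1) ^ 2 + (u t x 2 - v t x 2) ^ 2) * d2
    rw [h3]
    linarith
  have c1 : Continuous fun x => ∑ j, G' j x := by fun_prop
  have c2 : Continuous fun x => ∑ i, (u t x i - v t x i) ^ 2 := by fun_prop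
  calc ∫ x in Icc (0 : Fin 3 → ℝ) 1, ∑ i, 2 * (u t x i - v t x i) * (ut t x i - vt t x i)
      ≤ ∫ x in Icc (0 : Fin 3 → ℝ) 1, (∑ j, G' j x + 6 * C * ∑ i, (u t x i - v t x i) ^ 2) :=
        setIntegral_mono_on (int (by fun_prop)) (int (by fun_prop)) measurableSet_Icc key
    _ = _ := by
        rw [integral_add (int c1) (int (by fun_prop)), iG2, zero_add, integral_const_mul]

/-- Uniqueness of the velocity. -/
theorem Sol.unique_u (hν : 0 ≤ ν) (hu : Sol ν T f u p ut ux uxx px)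
    (hv : Sol ν T f v q vt vx vxx qx) : ∀ t ∈ Icc 0 T, u t = v t := by
  set F : ℝ → (Fin 3 → ℝ) → ℝ := fun t x => ∑ i, (u t x i - v t x i) ^ 2 with hF
  set F' : ℝ → (Fin 3 → ℝ) → ℝ := fun t x =>
    ∑ i, 2 * (u t x i - v t x i) * (ut t x i - vt t x i) with hF'
  have cF : ContinuousOn (fun z : ℝ × (Fin 3 → ℝ) => F z.1 z.2) (Icc 0 T ×ˢ univ) :=
    continuousOn_finsetSum _ fun i _ => ((hu.cont_u i).sub (hv.cont_u i)).pow 2
  have cF' : ContinuousOn (fun z : ℝ × (Fin 3 → ℝ) => F' z.1 z.2) (Icc 0 T ×ˢ univ) :=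
    continuousOn_finsetSum _ fun i _ =>
      (continuousOn_const.mul ((hu.cont_u i).sub (hv.cont_u i))).mul
        ((hu.cont_ut i).sub (hv.cont_ut i))
  set E : ℝ → ℝ := fun t => ∫ x in Icc (0 : Fin 3 → ℝ) 1, F t x with hE
  have cE : ContinuousOn E (Icc 0 T) := by
    rw [continuousOn_iff_continuous_domRestrict]
    refine continuous_parametric_integral_of_continuous
      (f := fun (t : Icc (0 : ℝ) T) x => F t x) ?_ isCompact_Icc
    exact cF.comp_continuous (f := fun z : Icc (0 : ℝ) T × (Fin 3 → ℝ) => ((z.1 : ℝ), z.2))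
      (by fun_prop) fun z => ⟨z.1.2, mem_univ _⟩
  obtain ⟨B, hB⟩ := bound_cube cF'
  have dE : ∀ t ∈ Ioo 0 T, HasDerivAt E (∫ x in Icc (0 : Fin 3 → ℝ) 1, F' t x) t := by
    intro t ht
    have ht' := Ioo_subset_Icc_self ht
    refine (hasDerivAt_integral_of_dominated_loc_of_deriv_le (s := Ioo 0 T) (F := F) (F' := F')
      (bound := fun _ => B) (isOpen_Ioo.mem_nhds ht) ?_ ?_ ?_ ?_ ?_ ?_).2
    · filter_upwards [isOpen_Ioo.mem_nhds ht] with s hs
      exact (cont_slice (Ioo_subset_Icc_self hs) cF).aestronglyMeasurable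
    · exact (cont_slice ht' cF).continuousOn.integrableOn_compact isCompact_Icc
    · exact (cont_slice ht' cF').aestronglyMeasurable
    · filter_upwards [ae_restrict_mem measurableSet_Icc] with x hx s hs
      exact hB s (Ioo_subset_Icc_self hs) x hx
    · exact continuousOn_const.integrableOn_compact isCompact_Icc
    · refine Filter.Eventually.of_forall fun x s hs => ?_
      have h1 := HasDerivAt.fun_sum (u := Finset.univ) fun i _ =>
        ((hu.d_t s hs x i).fun_sub (hv.d_t s hs x i)).fun_pow 2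
      simpa [hF, hF'] using h1
  choose C hC using fun j i => bound_cube (g := fun t x => ux j t x i) (hu.cont_ux j i)
  set K : ℝ := 6 * ∑ j, ∑ i, |C j i| with hK
  have hle : ∀ t ∈ Ioo 0 T, ∫ x in Icc (0 : Fin 3 → ℝ) 1, F' t x ≤ K * E t := by
    intro t ht
    refine energy_le hν hu hv ht fun x hx j i => (hC j i t (Ioo_subset_Icc_self ht) x hx).trans ?_
    refine (le_abs_self _).trans ?_
    refine le_trans ?_ (Finset.single_le_sum (f := fun j => ∑ i, |C j i|)
      (fun j _ => by positivity) (Finset.mem_univ j))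
    exact Finset.single_le_sum (f := fun i => |C j i|) (fun i _ => abs_nonneg _) (Finset.mem_univ i)
  have dH : ∀ t ∈ Ioo 0 T, HasDerivAt (fun t => Real.exp (-K * t) * E t)
      (Real.exp (-K * t) * (-K * 1) * E t +
        Real.exp (-K * t) * ∫ x in Icc (0 : Fin 3 → ℝ) 1, F' t x) t := fun t ht =>
    ((hasDerivAt_id t).const_mul (-K)).exp.fun_mul (dE t ht)
  have anti : AntitoneOn (fun t => Real.exp (-K * t) * E t) (Icc 0 T) := by
    refine antitoneOn_of_deriv_nonpos (convex_Icc 0 T) (ContinuousOn.mul (by fun_prop) cE) ?_ ?_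
    · rw [interior_Icc]
      exact fun t ht => (dH t ht).differentiableAt.differentiableWithinAt
    · rw [interior_Icc]
      intro t ht
      rw [(dH t ht).deriv]
      have := mul_le_mul_of_nonneg_left (hle t ht) (Real.exp_pos (-K * t)).le
      linarith
  intro t ht
  have hE0 : E 0 = 0 := by simp [hE, hF, hu.init, hv.init]
  have h1 : Real.exp (-K * t) * E t ≤ 0 := by
    have := anti ⟨le_rfl, ht.1.trans ht.2⟩ ht ht.1
    simpa [hE0] using this
  have h2 : E t ≤ 0 := by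
    by_contra h
    exact absurd h1 (not_le.2 (mul_pos (Real.exp_pos _) (not_le.1 h)))
  have h3 := eq_zero_on_cube (cont_slice ht cF) (fun x => by simp only [hF]; positivity) h2
  funext x
  rw [eq_of_periodic (hu.per_u t ht) x, eq_of_periodic (hv.per_u t ht) x]
  funext i
  have h4 := (Finset.sum_eq_zero_iff_of_nonneg fun i _ => sq_nonneg _).1
    (h3 _ (fract_mem_cube x)) i (Finset.mem_univ i)
  exact sub_eq_zero.1 (pow_eq_zero_iff two_ne_zero |>.1 h4)

/-- Uniqueness of the pressure. -/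
theorem Sol.unique_p (hν : 0 ≤ ν) (hT : 0 < T) (hu : Sol ν T f u p ut ux uxx px)
    (hv : Sol ν T f v q vt vx vxx qx) : ∀ t ∈ Icc 0 T, p t = q t := by
  have huv := hu.unique_u hν hv
  have hoo : ∀ t ∈ Ioo 0 T, p t = q t := by
    intro t ht
    have ht' := Ioo_subset_Icc_self ht
    have h1 : ∀ x i, ut t x i = vt t x i := by
      intro x i
      refine (hu.d_t t ht x i).unique ((hv.d_t t ht x i).congr_of_eventuallyEq ?_)
      filter_upwards [isOpen_Ioo.mem_nhds ht] with s hs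
      rw [huv s (Ioo_subset_Icc_self hs)]
    have h2 : ∀ j x i, ux j t x i = vx j t x i := by
      intro j x i
      refine (hu.d_x t ht j x i).unique ?_
      rw [huv t ht']
      exact hv.d_x t ht j x i
    have h3 : ∀ j x i, uxx j t x i = vxx j t x i := by
      intro j x i
      refine (hu.d_xx t ht j x i).unique ?_
      simp only [h2]
      exact hv.d_xx t ht j x i
    have h4 : ∀ j x, px j t x - qx j t x = 0 := by
      intro j x
      have e1 := hu.eqn t ht x j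
      have e2 := hv.eqn t ht x j
      simp only [h1, h2, h3, huv t ht'] at e1
      linarith
    have h5 := const_of_deriv_zero (r := fun x => p t x - q t x) fun j x => by
      have := (hu.d_p t ht j x).fun_sub (hv.d_p t ht j x)
      rwa [h4] at this
    have h6 : ∫ x in Icc (0 : Fin 3 → ℝ) 1, (p t x - q t x) = 0 := by
      rw [integral_sub ((cont_slice ht' hu.cont_p).continuousOn.integrableOn_compact isCompact_Icc)
        ((cont_slice ht' hv.cont_p).continuousOn.integrableOn_compact isCompact_Icc),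
        hu.mean t ht, hv.mean t ht, sub_zero]
    have h7 : p t 0 - q t 0 = 0 := by
      simp only [h5] at h6
      simpa [Measure.real, Real.volume_Icc_pi] using h6
    funext x
    exact sub_eq_zero.1 ((h5 x).trans h7)
  intro t ht
  funext x
  refine EqOn.of_subset_closure (s := Ioo 0 T) (f := fun t => p t x) (g := fun t => q t x)
    (fun s hs => by simp only [hoo s hs]) (cont_time x hu.cont_p) (cont_time x hv.cont_p)
    Ioo_subset_Icc_self (by rw [closure_Ioo hT.ne]) ht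

/-- **Uniqueness of classical solutions** of the forced Navier-Stokes system on the torus. -/
theorem Sol.unique (hν : 0 ≤ ν) (hT : 0 < T) (hu : Sol ν T f u p ut ux uxx px)
    (hv : Sol ν T f v q vt vx vxx qx) : ∀ t ∈ Icc 0 T, u t = v t ∧ p t = q t :=
  fun t ht => ⟨hu.unique_u hν hv t ht, hu.unique_p hν hT hv t ht⟩

end Vale.Agent.P113U
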