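import Mathlib

/-!
P113, uniqueness for Navier-Stokes on the torus: integration by parts on the unit cube for
periodic functions.
-/

open MeasureTheory Set Function

namespace Vale.Agent.P113U

/-- The integral over the unit cube of a one-directional derivative of a function which is
periodic in this direction vanishes. -/
theorem integral_deriv_eq_zero {n : ℕ} (j : Fin (n + 1)) {g g' : (Fin (n + 1) → ℝ) → ℝ}
    (hg' : Continuous g')
    (hd : ∀ x, HasDerivAt (fun s => g (update x j s)) (g' x) (x j))
    (hper : ∀ x, g (x + Pi.single j 1) = g x) :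
    ∫ x in Icc (0 : Fin (n + 1) → ℝ) 1, g' x = 0 := by
  set e : ℝ × (Fin n → ℝ) ≃ᵐ (Fin (n + 1) → ℝ) :=
    (MeasurableEquiv.piFinSuccAbove (fun _ => ℝ) j).symm with he
  have hem : MeasurePreserving e :=
    (volume_preserving_piFinSuccAbove (fun _ : Fin (n + 1) => ℝ) j).symm _
  have he1 : (e ⁻¹' Icc 0 1) = Icc (0 : ℝ) 1 ×ˢ Icc (0 : Fin n → ℝ) 1 :=
    ((Fin.insertNthOrderIso (fun _ => ℝ) j).preimage_Icc _ _).trans (Icc_prod_eq _ _)
  have hint : IntegrableOn g' (Icc (0 : Fin (n + 1) → ℝ) 1) :=
    hg'.continuousOn.integrableOn_compact isCompact_Icc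
  have hint' : IntegrableOn (g' ∘ e) (Icc (0 : ℝ) 1 ×ˢ Icc (0 : Fin n → ℝ) 1) := by
    rwa [← hem.integrableOn_comp_preimage e.measurableEmbedding, he1] at hint
  have hev : ∀ (s : ℝ) (y : Fin n → ℝ), e (s, y) = j.insertNth s y := fun s y => rfl
  rw [← hem.map_eq, setIntegral_map_equiv, he1, Measure.volume_eq_prod, ← Measure.prod_restrict,
    integral_prod_symm]
  swap
  · rw [Measure.prod_restrict]
    exact hint'
  have hz : ∀ y : Fin n → ℝ, ∫ s in Icc (0 : ℝ) 1, g' (e (s, y)) = 0 := by
    intro y
    have hup : ∀ s s' : ℝ, update (e (s, y)) j s' = e (s', y) := by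
      intro s s'
      rw [hev, hev]
      exact Fin.update_insertNth (α := fun _ => ℝ) j s s' y
    have hc : Continuous fun s : ℝ => e (s, y) := by
      have : (fun s : ℝ => e (s, y)) = fun s => update (e (0, y)) j s := by
        funext s
        rw [hup]
      rw [this]
      exact continuous_const.update j continuous_id
    have hd' : ∀ s ∈ uIcc (0 : ℝ) 1, HasDerivAt (fun s => g (e (s, y))) (g' (e (s, y))) s := by
      intro s _
      have h1 := hd (e (s, y))
      have h2 : e (s, y) j = s := by rw [hev]; exact Fin.insertNth_apply_same _ _ _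
      rw [h2] at h1
      simpa only [hup] using h1
    have h3 := intervalIntegral.integral_eq_sub_of_hasDerivAt hd'
      ((hg'.comp hc).intervalIntegrable 0 1)
    rw [intervalIntegral.integral_of_le zero_le_one, ← integral_Icc_eq_integral_Ioc] at h3
    rw [h3]
    have h4 : e (1, y) = e (0, y) + Pi.single j 1 := by
      rw [← hup 0 1]
      funext k
      by_cases hk : k = j
      · subst hk
        have h2 : e (0, y) k = 0 := by rw [hev]; exact Fin.insertNth_apply_same _ _ _
        simp [h2]
      · simp [hk]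
    rw [h4, hper, sub_self]
  simp [hz]

/-- The derivative of a periodic function is periodic. -/
theorem deriv_periodic {ι : Type*} [DecidableEq ι] {E : Type*} [NormedAddCommGroup E]
    [NormedSpace ℝ E] (j k : ι) {g g' : (ι → ℝ) → E}
    (hd : ∀ x, HasDerivAt (fun s => g (update x j s)) (g' x) (x j))
    (hper : ∀ x, g (x + Pi.single k 1) = g x) (x : ι → ℝ) :
    g' (x + Pi.single k 1) = g' x := by
  have h1 := hd (x + Pi.single k 1)
  set c : ℝ := (Pi.single k (1 : ℝ) : ι → ℝ) j with hc
  have h2 : (fun s => g (update (x + Pi.single k 1) j s)) =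
      (fun s => g (update x j s)) ∘ fun s => s - c := by
    funext s
    simp only [comp_apply]
    rw [← hper (update x j (s - c))]
    congr 1
    funext i
    by_cases hi : i = j
    · subst hi
      simp [hc]
    · simp [hi]
  have h3 : HasDerivAt ((fun s => g (update x j s)) ∘ fun s => s - c) ((1 : ℝ) • g' x)
      ((x + Pi.single k 1 : ι → ℝ) j) := by
    refine HasDerivAt.scomp _ ?_ ((hasDerivAt_id _).sub_const c)
    have : (x + Pi.single k 1 : ι → ℝ) j - c = x j := by simp [hc]
    rw [this]
    exact hd x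
  rw [h2] at h1
  rw [h1.unique h3, one_smul]

/-- A function with the periods `e_j` which vanishes on the unit cube vanishes everywhere. -/
theorem eq_of_periodic {ι : Type*} [DecidableEq ι] [Fintype ι] {E : Type*} {g : (ι → ℝ) → E}
    (hper : ∀ x j, g (x + Pi.single j 1) = g x) (x : ι → ℝ) :
    g x = g fun i => Int.fract (x i) := by
  have h1 : Periodic g (∑ j, ⌊x j⌋ • (Pi.single j (1 : ℝ) : ι → ℝ)) :=
    Finset.sum_induction _ (Periodic g) (fun _ _ => Periodic.add_period)
      (periodic_with_period_zero g) fun j _ => Periodic.zsmul (fun y => hper y j) _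
  rw [← h1 fun i => Int.fract (x i)]
  congr 1
  funext i
  simp [Finset.sum_apply, Pi.single_apply]

theorem fract_mem_cube {ι : Type*} (x : ι → ℝ) :
    (fun i => Int.fract (x i)) ∈ Icc (0 : ι → ℝ) 1 :=
  ⟨fun i => Int.fract_nonneg (x i), fun i => (Int.fract_lt_one (x i)).le⟩

/-- A continuous nonnegative function whose integral over the unit cube is not positive vanishes on
the cube. -/
theorem eq_zero_on_cube {ι : Type*} [Fintype ι] {g : (ι → ℝ) → ℝ} (hg : Continuous g)
    (h0 : ∀ x, 0 ≤ g x) (hi : ∫ x in Icc (0 : ι → ℝ) 1, g x ≤ 0) :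
    ∀ x ∈ Icc (0 : ι → ℝ) 1, g x = 0 := by
  have hint : IntegrableOn g (Icc (0 : ι → ℝ) 1) :=
    hg.continuousOn.integrableOn_compact isCompact_Icc
  have h1 : ∫ x in Icc (0 : ι → ℝ) 1, g x = 0 :=
    le_antisymm hi (integral_nonneg h0)
  rw [integral_eq_zero_iff_of_nonneg h0 hint] at h1
  refine Measure.eqOn_of_ae_eq h1 hg.continuousOn continuousOn_const ?_
  rw [← pi_univ_Icc, interior_pi_set finite_univ, closure_pi_set]
  refine pi_mono fun i _ => ?_
  simp

/-- A function all of whose one-directional derivatives vanish is constant. -/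
theorem const_of_deriv_zero {ι : Type*} [DecidableEq ι] [Fintype ι] {r : (ι → ℝ) → ℝ}
    (hd : ∀ j x, HasDerivAt (fun s => r (update x j s)) 0 (x j)) (x : ι → ℝ) : r x = r 0 := by
  have h1 : ∀ j x s, r (update x j s) = r x := by
    intro j x s
    have h2 : ∀ s₀, HasDerivAt (fun s => r (update x j s)) 0 s₀ := by
      intro s₀
      simpa using hd j (update x j s₀)
    have h3 := is_const_of_deriv_eq_zero (fun s₀ => (h2 s₀).differentiableAt)
      (fun s₀ => (h2 s₀).deriv) s (x j)
    simpa using h3
  have h4 : ∀ S : Finset ι, r (S.piecewise x 0) = r 0 := by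
    intro S
    induction S using Finset.induction_on with
    | empty => simp
    | insert j S _ ih => rw [Finset.piecewise_insert, h1, ih]
  simpa using h4 Finset.univ

end Vale.Agent.P113U
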